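/-
R335/MB/Gap: part of block MB (helper17)
-/
import Crest.Agent.R335.T.Min

set_option autoImplicit false
set_option linter.unusedSectionVars false
set_option linter.unusedVariables false
set_option linter.unusedSimpArgs false

noncomputable section

namespace Crest.Agent.R335

open MeasureTheory Set Filter Topology Metric
open scoped ENNReal

section gen
variable {E : Type} [NormedAddCommGroup E] [NormedSpace ℝ E] [FiniteDimensional ℝ E]
  [MeasureSpace E] [BorelSpace E] [(volume : Measure E).IsAddHaarMeasure]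
  {ι : Type} [Fintype ι] {b : ι → E}
  {E' : Type} [NormedAddCommGroup E'] [NormedSpace ℝ E'] [FiniteDimensional ℝ E']
  [MeasureSpace E'] [BorelSpace E'] [(volume : Measure E').IsAddHaarMeasure]
  {ι' : Type} [Fintype ι'] {b' : ι' → E'}

theorem mb_ip_comm (f g : E → ℝ) : ip f g = ip g f := by simp only [ip, mul_comm]

theorem mb_ip_nonneg (f : E → ℝ) : 0 ≤ ip f f := integral_nonneg fun _ => mul_self_nonneg _

theorem mb_ip_congr {f f' g g' : E → ℝ} (h : f =ᵐ[volume] f') (h' : g =ᵐ[volume] g') :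
    ip f g = ip f' g' :=
  integral_congr_ae (by filter_upwards [h, h'] with x h1 h2; rw [h1, h2])

theorem mb_ip_mul (c : ℝ) (f g : E → ℝ) : ip (fun x => c * f x) g = c * ip f g := by
  simp only [ip, mul_assoc, integral_const_mul]

theorem mb_ip_sub {f f' g : E → ℝ} (hf : MemLp f 2 volume) (hf' : MemLp f' 2 volume)
    (hg : MemLp g 2 volume) : ip (fun x => f x - f' x) g = ip f g - ip f' g := by
  simp only [ip, sub_mul]
  exact integral_sub (hf.integrable_mul hg) (hf'.integrable_mul hg)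

theorem mb_ip_le {f g : E → ℝ} (hf : MemLp f 2 volume) (hg : MemLp g 2 volume) (h1 : ip f f = 1) :
    ip f g ^ 2 ≤ ip g g := by simpa [h1] using ip_sq_le hf hg

/-- adding a nonnegative potential -/
theorem mb_qf_le {U W f : E → ℝ} (hU : Pot b U) (hW : Pot b W) (h0 : ∀ x, 0 ≤ W x) {l : ℝ}
    (hl : 0 ≤ l) (hf : H1 b f) : qf b U f f ≤ qf b (fun x => U x + l * W x) f f := by
  rw [hU.qf_add_pot (hW.const_mul l) hf hf]
  exact le_add_of_nonneg_right (integral_nonneg fun x => by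
    have := mul_nonneg (mul_nonneg hl (h0 x)) (mul_self_nonneg (f x))
    rw [mul_assoc]; exact this)

/-- lower bounds of the slices integrate to a lower bound on the product -/
theorem mb_low {U φ ψ : E → ℝ} {U' φ' ψ' : E' → ℝ} (hU : Pot b U) (hU' : Pot b' U')
    {F : E × E' → ℝ} (hF : H1 (pb b b') F) (hφ : MemLp φ 2 volume) (hψ : MemLp ψ 2 volume)
    (hφ' : MemLp φ' 2 volume) (hψ' : MemLp ψ' 2 volume) {a α β a' α' β' : ℝ}
    (h : ∀ f, H1 b f → a * ip f f - α * ip φ f ^ 2 - β * ip ψ f ^ 2 ≤ qf b U f f)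
    (h' : ∀ x, H1 b' (fun y => F (x, y)) → a' * ip (fun y => F (x, y)) (fun y => F (x, y)) -
      α' * ip φ' (fun y => F (x, y)) ^ 2 - β' * ip ψ' (fun y => F (x, y)) ^ 2 ≤
        qf b' U' (fun y => F (x, y)) fun y => F (x, y)) :
    (a + a') * ip F F - α * (∫ y, (∫ x, φ x * F (x, y)) ^ 2) - β * (∫ y, (∫ x, ψ x * F (x, y)) ^ 2)
      - α' * (∫ x, (∫ y, φ' y * F (x, y)) ^ 2) - β' * (∫ x, (∫ y, ψ' y * F (x, y)) ^ 2) ≤
        qf (pb b b') (fun p => U p.1 + U' p.2) F F := by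
  obtain ⟨i1, i2, e⟩ := hU.qf_pb hU' hF hF
  obtain ⟨j1, e1⟩ := ip_prod' hF.1 hF.1
  obtain ⟨j2, e2⟩ := ip_prod hF.1 hF.1
  have k1 := (memLp_partial' hφ hF.1).1.integrable_sq
  have k2 := (memLp_partial' hψ hF.1).1.integrable_sq
  have k3 := (memLp_partial hφ' hF.1).1.integrable_sq
  have k4 := (memLp_partial hψ' hF.1).1.integrable_sq
  have l1 := integral_mono_ae (((j1.const_mul a).sub (k1.const_mul α)).sub (k2.const_mul β)) i1
    (hF.slice_left.mono fun y hy => h _ hy.1)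
  have l2 := integral_mono_ae (((j2.const_mul a').sub (k3.const_mul α')).sub (k4.const_mul β')) i2
    (hF.slice_right.mono fun x hx => h' x hx.1)
  rw [integral_sub' ((j1.const_mul a).sub (k1.const_mul α)) (k2.const_mul β),
    integral_sub' (j1.const_mul a) (k1.const_mul α), integral_const_mul, integral_const_mul,
    integral_const_mul, ← e1] at l1
  rw [integral_sub' ((j2.const_mul a').sub (k3.const_mul α')) (k4.const_mul β'),
    integral_sub' (j2.const_mul a') (k3.const_mul α'), integral_const_mul, integral_const_mul,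
    integral_const_mul, ← e2] at l2
  rw [e]
  linarith

theorem mb_bessel1 {φ : E → ℝ} {Φ : E' → ℝ} (hφ : MemLp φ 2 volume) (hΦ : MemLp Φ 2 volume)
    (h1 : ip φ φ = 1) (h2 : ip Φ Φ = 1) {F : E × E' → ℝ} (hF : MemLp F 2 volume) :
    (∫ y, (∫ x, φ x * F (x, y)) ^ 2) + (∫ x, (∫ y, Φ y * F (x, y)) ^ 2) ≤
      ip F F + ip (fun p : E × E' => φ p.1 * Φ p.2) F ^ 2 := by
  simpa using bessel_prod (κ := Unit) (κ' := Unit) (φ := fun _ => φ) (Φ := fun _ => Φ)
    (fun _ => hφ) (fun _ => hΦ) (by simpa using h1) (by simpa using h2) hF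

/-- the gap of a tensor sum -/
theorem mb_gap_tensor {U φ : E → ℝ} {U' Φ : E' → ℝ} (hU : Pot b U) (hU' : Pot b' U')
    {F : E × E' → ℝ} (hF : H1 (pb b b') F) (hφ : MemLp φ 2 volume) (hΦ : MemLp Φ 2 volume)
    (h1 : ip φ φ = 1) (h2 : ip Φ Φ = 1) {a α a' α' γ : ℝ} (hγ : 0 ≤ γ) (hα : γ ≤ α) (hα' : γ ≤ α')
    (h : ∀ f, H1 b f → a * ip f f - α * ip φ f ^ 2 ≤ qf b U f f)
    (h' : ∀ x, H1 b' (fun y => F (x, y)) → a' * ip (fun y => F (x, y)) (fun y => F (x, y)) -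
      α' * ip Φ (fun y => F (x, y)) ^ 2 ≤ qf b' U' (fun y => F (x, y)) fun y => F (x, y)) :
    (a + a' - α - α' + γ) * ip F F - γ * ip (fun p : E × E' => φ p.1 * Φ p.2) F ^ 2 ≤
      qf (pb b b') (fun p => U p.1 + U' p.2) F F := by
  have k := mb_low hU hU' hF hφ hφ hΦ hΦ (a := a) (α := α) (β := 0) (a' := a') (α' := α') (β' := 0)
    (by simpa using h) (by simpa using h')
  have k1 := mb_bessel1 hφ hΦ h1 h2 hF.1
  have k2 := (memLp_partial' hφ hF.1).2.2
  have k3 := (memLp_partial hΦ hF.1).2.2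
  rw [h1, one_mul] at k2
  rw [h2, one_mul] at k3
  nlinarith [mul_le_mul_of_nonneg_left k1 hγ, mul_le_mul_of_nonneg_left k2 (sub_nonneg.2 hα),
    mul_le_mul_of_nonneg_left k3 (sub_nonneg.2 hα')]

end gen

/-- The noninteracting potentials and the interactions. -/
def V2 (D : ℝ) (y : Y) : ℝ := V D y.1 + V D y.2
def V3 (D : ℝ) (p : Z) : ℝ := V D p.1 + V2 D p.2
def W2 (y : Y) : ℝ := 1 / ‖y.1 - y.2‖
def W3 (p : Z) : ℝ := W2 p.2 + Wx p.1 p.2

theorem U2_eq (D l : ℝ) : U2 D l = fun y => V2 D y + l * W2 y := by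
  funext y; simp only [U2, V2, W2]; ring

theorem U3_eq (D l : ℝ) : U3 D l = fun p => V3 D p + l * W3 p := by
  funext p; simp only [U3, U2_eq, V3, W3]; ring

theorem pot_V2 (D : ℝ) : Pot eY (V2 D) := (pot_V D).fst.add (pot_V D).snd
theorem pot_V3 (D : ℝ) : Pot eZ (V3 D) := (pot_V D).fst.add (pot_V2 D).snd
theorem pot_W2 : Pot eY W2 := pot_pair
theorem pot_W3 : Pot eZ W3 := pot_W2.snd.add pot_W
theorem W2_nonneg (y : Y) : 0 ≤ W2 y := by unfold W2; positivity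
theorem W3_nonneg (p : Z) : 0 ≤ W3 p := by unfold W3 W2 Wx; positivity

/-- The normalised wedge product. -/
def wdg (g u : X → ℝ) (y : Y) : ℝ := (√2)⁻¹ * (g y.1 * u y.2 - u y.1 * g y.2)

variable {c C D : ℝ} {g u : X → ℝ} {eg eu : ℝ}

theorem OB.gu (h : OB c C D g u eg eu) : ip g u = 0 :=
  integral_odd (Eventually.of_forall fun x => by rw [h.g_even, h.u_odd, mul_neg])

theorem OB.ug (h : OB c C D g u eg eu) : ip u g = 0 := by rw [mb_ip_comm, h.gu]

theorem OB.gap1 (h : OB c C D g u eg eu) (f : X → ℝ) (hf : H1 eX f) :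
    eu * ip f f - (eu - eg) * ip g f ^ 2 ≤ qf eX (V D) f f := by
  have h1 := h.gap f hf
  have h2 := ip_lin (hf.1.sub (h.hg.1.const_mul (ip g f))) h.hu.1 1 (-ip u f)
  have h3 := ip_lin hf.1 h.hg.1 1 (-ip g f)
  have h4 : ip (f - fun x => ip g f * g x) (f - fun x => ip g f * g x) =
      ip (fun x => 1 * f x + -ip g f * g x) fun x => 1 * f x + -ip g f * g x := by
    congr 1 <;> funext x <;> simp only [Pi.sub_apply] <;> ring
  have h5 : ip (f - fun x => ip g f * g x) u = ip u f := by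
    have := mb_ip_sub hf.1 (h.hg.1.const_mul (ip g f)) h.hu.1
    rw [mb_ip_mul, h.gu, mul_zero, sub_zero, mb_ip_comm f] at this
    exact this
  have h6 := mb_ip_nonneg fun x => 1 * (f - fun x => ip g f * g x) x + -ip u f * u x
  rw [h2, h4, h3, h5, h.nu, h.ng, mb_ip_comm f g] at h6
  nlinarith [h.c_pos]

theorem OB.gg_h1 (h : OB c C D g u eg eu) : H1 eY fun y : Y => g y.1 * g y.2 := (h.hg.tensor h.hg).1

theorem OB.gg_nrm (h : OB c C D g u eg eu) :
    ip (fun y : Y => g y.1 * g y.2) (fun y : Y => g y.1 * g y.2) = 1 := by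
  rw [ip_tensor, h.ng, one_mul]

theorem OB.gapA (h : OB c C D g u eg eu) (G : Y → ℝ) (hG : H1 eY G) :
    (eg + eu) * ip G G - (eu - eg) * ip (fun y : Y => g y.1 * g y.2) G ^ 2 ≤ qf eY (V2 D) G G := by
  have := mb_gap_tensor (pot_V D) (pot_V D) hG h.hg.1 h.hg.1 h.ng h.ng (sub_nonneg.2 h.lt.le) le_rfl
    le_rfl h.gap1 fun x hx => h.gap1 _ hx
  exact le_of_eq_of_le (by ring) this

theorem OB.gapB (h : OB c C D g u eg eu) (G : Y → ℝ) (hG : H1 eY G) :
    (eg + eu + c) * ip G G - (eu - eg) * ip (fun y : Y => g y.1 * g y.2) G ^ 2 -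
      c * (ip (fun y : Y => g y.1 * g y.2) G ^ 2 + ip (fun y : Y => g y.1 * u y.2) G ^ 2 +
        ip (fun y : Y => u y.1 * g y.2) G ^ 2 + ip (fun y : Y => u y.1 * u y.2) G ^ 2) ≤
      qf eY (V2 D) G G := by
  have k := mb_low (pot_V D) (pot_V D) hG h.hg.1 h.hu.1 h.hg.1 h.hu.1 h.gap fun x hx => h.gap _ hx
  have k1 := mb_bessel1 h.hg.1 h.hg.1 h.ng h.ng hG.1
  have hm : ∀ a : Fin 2, MemLp (![g, u] a) 2 volume := by
    simp [Fin.forall_fin_two, h.hg.1, h.hu.1]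
  have ho : ∀ a a' : Fin 2, ip (![g, u] a) (![g, u] a') = if a = a' then 1 else 0 := by
    simp [Fin.forall_fin_two, h.ng, h.nu, h.gu, h.ug]
  have k2 := bessel_prod hm hm ho ho hG.1
  simp only [Fin.sum_univ_two, Matrix.cons_val_zero, Matrix.cons_val_one] at k2
  refine le_trans ?_ k
  nlinarith [mul_le_mul_of_nonneg_left k1 (sub_nonneg.2 h.lt.le),
    mul_le_mul_of_nonneg_left k2 h.c_pos.le]

theorem OB.wdg_h1 (h : OB c C D g u eg eu) : H1 eY (wdg g u) :=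
  ((h.hg.tensor h.hu).1.sub (h.hu.tensor h.hg).1).const_mul _

theorem OB.wdg_ip (h : OB c C D g u eg eu) {G : Y → ℝ} (hG : MemLp G 2 volume) :
    ip (wdg g u) G = (√2)⁻¹ *
      (ip (fun y : Y => g y.1 * u y.2) G - ip (fun y : Y => u y.1 * g y.2) G) := by
  rw [← mb_ip_sub (h.hg.tensor h.hu).1.1 (h.hu.tensor h.hg).1.1 hG, ← mb_ip_mul]
  rfl

theorem mb_sqrt2 : (√2)⁻¹ ^ 2 = (1 / 2 : ℝ) := by rw [inv_pow, Real.sq_sqrt (by norm_num)]; norm_num

theorem OB.wdg_nrm (h : OB c C D g u eg eu) : ip (wdg g u) (wdg g u) = 1 := by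
  rw [h.wdg_ip h.wdg_h1.1, mb_ip_comm _ (wdg g u), mb_ip_comm _ (wdg g u),
    h.wdg_ip (h.hg.tensor h.hu).1.1, h.wdg_ip (h.hu.tensor h.hg).1.1]
  simp only [ip_tensor, h.ng, h.nu, h.gu, h.ug]
  nlinarith [mb_sqrt2]

theorem OB.wdg_eig (h : OB c C D g u eg eu) (φ : Y → ℝ) (hφ : H1 eY φ) :
    qf eY (V2 D) (wdg g u) φ = (eg + eu) * ip (wdg g u) φ := by
  have h1 := (pot_V D).eig_tensor (pot_V D) h.hg h.hu h.eqg h.equ hφ
  have h2 := (pot_V D).eig_tensor (pot_V D) h.hu h.hg h.equ h.eqg hφ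
  have h3 := (pot_V2 D).qf_sub_left (h.hg.tensor h.hu).1 (h.hu.tensor h.hg).1 hφ
  have h4 := qf_const_mul_left ((h.hg.tensor h.hu).1.sub (h.hu.tensor h.hg).1) (√2)⁻¹ (V2 D) φ
  rw [h.wdg_ip hφ.1]
  refine h4.trans ?_
  erw [h3, h1, h2]
  ring

/-- the gap on antisymmetric functions of two electrons -/
theorem OB.gapC (h : OB c C D g u eg eu) (G : Y → ℝ) (hG : H1 eY G) (ha : ∀ y, G y.swap = -G y) :
    (eg + eu + c) * ip G G - c * ip (wdg g u) G ^ 2 ≤ qf eY (V2 D) G G := by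
  have k := h.gapB G hG
  have s : ∀ f f' : X → ℝ, ip (fun y : Y => f y.1 * f' y.2) G = -ip (fun y : Y => f' y.1 * f y.2) G :=
    fun f f' => by
      rw [← sym_swap.ip]
      simp only [ip, ha, Prod.fst_swap, Prod.snd_swap, mul_neg, integral_neg, mul_comm (f _)]
  have s1 : ip (fun y : Y => g y.1 * g y.2) G = 0 := by linarith [s g g]
  have s2 : ip (fun y : Y => u y.1 * u y.2) G = 0 := by linarith [s u u]
  rw [s1, s2, s u g] at k
  rw [h.wdg_ip hG.1, s u g, mul_pow, mb_sqrt2]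
  nlinarith

theorem A0_eq (g u : X → ℝ) (p : Z) : A0 g u (p.2.2, (p.2.1, p.1)) = -(g p.1 * wdg g u p.2) := by
  simp only [A0, wdg]; ring

theorem V3_13 (D : ℝ) (p : Z) : V3 D (p.2.2, (p.2.1, p.1)) = V3 D p := by
  simp only [V3, V2]; ring

theorem OB.A0_h1 (h : OB c C D g u eg eu) : H1 eZ (A0 g u) := by
  have := sym_13.h1 (h.hg.tensor h.wdg_h1).1.neg
  exact this.congr (Eventually.of_forall fun p => (A0_eq g u (p.2.2, (p.2.1, p.1))).symm)

theorem OB.A0_nrm (h : OB c C D g u eg eu) : ip (A0 g u) (A0 g u) = 1 := by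
  rw [← sym_13.ip]
  have := ip_tensor g g (wdg g u) (wdg g u)
  rw [h.ng, h.wdg_nrm, one_mul] at this
  simpa only [A0_eq, ip, neg_mul_neg] using this

theorem OB.A0_eig (h : OB c C D g u eg eu) (φ : Z → ℝ) (hφ : H1 eZ φ) :
    qf eZ (V3 D) (A0 g u) φ = (2 * eg + eu) * ip (A0 g u) φ := by
  rw [← sym_13.qf (V3 D) h.A0_h1.hl hφ.hl, ← sym_13.ip]
  have h1 := (pot_V D).eig_tensor (pot_V2 D) h.hg h.wdg_h1 h.eqg h.wdg_eig (sym_13.h1 hφ)
  have h2 := qf_const_mul_left (h.hg.tensor h.wdg_h1).1 (-1) (V3 D)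
    fun p : Z => φ (p.2.2, (p.2.1, p.1))
  have h3 := mb_ip_mul (-1) (fun p : Z => g p.1 * wdg g u p.2) fun p : Z => φ (p.2.2, (p.2.1, p.1))
  simp only [neg_one_mul] at h2 h3
  simp only [A0_eq, V3_13, h3]
  refine h2.trans ?_
  erw [h1]
  ring

/-- the gap on functions of three electrons that are antisymmetric in the first two -/
theorem OB.gap3 (h : OB c C D g u eg eu) (A : Z → ℝ) (hA : H1 eZ A) (ha : Anti12 A) :
    (2 * eg + eu + min (eu - eg) c) * ip A A - min (eu - eg) c * ip (A0 g u) A ^ 2 ≤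
      qf eZ (V3 D) A A := by
  rw [← sym_13.qf (V3 D) hA.hl hA.hl, ← sym_13.ip A, ← sym_13.ip (A0 g u)]
  have k := mb_gap_tensor (pot_V D) (pot_V2 D) (sym_13.h1 hA) h.hg.1 h.wdg_h1.1 h.ng h.wdg_nrm
    (le_min (sub_nonneg.2 h.lt.le) h.c_pos.le) (min_le_left _ _) (min_le_right _ _) h.gap1
    fun x hx => h.gapC _ hx fun y => ha _ _ _
  have h3 := mb_ip_mul (-1) (fun p : Z => g p.1 * wdg g u p.2) fun p : Z => A (p.2.2, (p.2.1, p.1))
  simp only [neg_one_mul] at h3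
  simp only [A0_eq, V3_13, h3, neg_sq]
  exact le_of_eq_of_le (by ring) k

end Crest.Agent.R335
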