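/-
R335/MB/Min: part of block MB (helper17)
-/
import Crest.Agent.R335.MB.Gap

set_option autoImplicit false
set_option linter.unusedSectionVars false
set_option linter.unusedVariables false
set_option linter.unusedSimpArgs false

noncomputable section

namespace Crest.Agent.R335

open MeasureTheory Set Filter Topology Metric
open scoped ENNReal

section gen
variable {E : Type} [NormedAddCommGroup E] [NormedSpace ℝ E] [FiniteDimensional ℝ E]
  [MeasureSpace E] [BorelSpace E] [(volume : Measure E).IsAddHaarMeasure]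
  {ι : Type} [Fintype ι] {b : ι → E}

/-- A ground state with its gap. -/
structure GS (b : ι → E) (U : E → ℝ) (T : E → E) (σ : ℝ) (ψ f : E → ℝ) (e E' : ℝ) : Prop where
  meas : Measurable f
  h1 : H1 b f
  sym : ∀ x, f (T x) = σ * f x
  nrm : ip f f = 1
  pos : 0 < ip ψ f
  lt : e < E'
  eq : ∀ g, H1 b g → qf b U f g = e * ip f g
  gap : ∀ g, H1 b g → (∀ᵐ x : E, g (T x) = σ * g x) →
    e * ip g g + (E' - e) * (ip g g - ip f g ^ 2) ≤ qf b U g g

variable {U ψ f : E → ℝ} {T S : E → E} {σ τ e E' : ℝ}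

theorem GS.energy (h : GS b U T σ ψ f e E') : qf b U f f = e := by rw [h.eq f h.h1, h.nrm, mul_one]

theorem GS.congr (h : GS b U T σ ψ f e E') {f' : E → ℝ} (he : f =ᵐ[volume] f') (hm : Measurable f')
    (hs : ∀ x, f' (T x) = σ * f' x) : GS b U T σ ψ f' e E' where
  meas := hm
  h1 := h.h1.congr he
  sym := hs
  nrm := by rw [← mb_ip_congr he he, h.nrm]
  pos := by rw [← mb_ip_congr EventuallyEq.rfl he]; exact h.pos
  lt := h.lt
  eq g hg := by rw [← mb_ip_congr he EventuallyEq.rfl, ← qf_congr he EventuallyEq.rfl, h.eq g hg]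
  gap g hg hs := by rw [← mb_ip_congr he EventuallyEq.rfl]; exact h.gap g hg hs

/-- a further symmetry of the problem is a symmetry of the ground state -/
theorem GS.addSym (h : GS b U T σ ψ f e E') (hS : Sym b b S) (hUS : ∀ x, U (S x) = U x)
    (hτ : τ * τ = 1) (hψ : ∀ x, ψ (S x) = τ * ψ x) (hTS : ∀ x, T (S x) = S (T x)) :
    GS b U T σ ψ (fun x => (f x + τ * f (S x)) / 2) e E' ∧
      ∫ x, ((f x + τ * f (S x)) / 2 - ψ x) ^ 2 = ∫ x, (f x - ψ x) ^ 2 := by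
  have h1 := hS.h1 h.h1
  have h2 : ip (fun x => f (S x)) (fun x => f (S x)) = 1 := by rw [hS.ip, h.nrm]
  have h3 := hS.qf U h.h1.hl h.h1.hl
  simp only [hUS, h.energy] at h3
  have h4 := h.gap _ h1 (Eventually.of_forall fun x => by rw [← hTS, h.sym])
  rw [h2, h3] at h4
  have h5 : 1 ≤ ip f (fun x => f (S x)) ^ 2 := by
    by_contra hc
    nlinarith [mul_pos (sub_pos.2 h.lt) (sub_pos.2 (not_le.1 hc))]
  have h6 : τ * ip ψ (fun x => f (S x)) = ip ψ f := by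
    rw [← hS.ip ψ f, ← mb_ip_mul]
    simp only [hψ]
  have h7 : f =ᵐ[volume] fun x => (f x + τ * f (S x)) / 2 := by
    have hp := h.pos
    rcases eq_of_ip_sq h.h1.1 h1.1 h.nrm h2 h5 with k | k
    · rw [mb_ip_congr EventuallyEq.rfl k] at h6
      have : τ = 1 := by nlinarith
      filter_upwards [k] with x hx
      rw [hx, this]; ring
    · have k2 : ip ψ (fun x => -f x) = -ip ψ f := by simp only [ip, mul_neg, integral_neg]
      rw [mb_ip_congr EventuallyEq.rfl k, k2] at h6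
      have : τ = -1 := by nlinarith
      filter_upwards [k] with x hx
      rw [hx, this]; ring
  refine ⟨h.congr h7 ((h.meas.add ((h.meas.comp hS.mp.measurable).const_mul τ)).div_const 2)
    fun x => ?_, integral_congr_ae (h7.mono fun x hx => ?_)⟩
  · rw [← hTS, h.sym, h.sym]; ring
  · exact congrArg (fun t => (t - ψ x) ^ 2) hx.symm

/-- perturbation of a noninteracting ground state -/
theorem mb_exists {U0 W : E → ℝ} (hU : Pot b U0) (hW : Pot b W) (h0 : ∀ x, 0 ≤ W x) (hT : Sym b b T)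
    (hTT : ∀ x, T (T x) = x) (hUT : ∀ x, U0 (T x) = U0 x) (hWT : ∀ x, W (T x) = W x)
    (hσ : σ = 1 ∨ σ = -1) (hψ : H1 b ψ) (hψT : ∀ x, ψ (T x) = σ * ψ x) (hn : ip ψ ψ = 1) {e0 γ : ℝ}
    (hγ : 0 < γ) (he : qf b U0 ψ ψ = e0)
    (hgap : ∀ g, H1 b g → (∀ x, g (T x) = σ * g x) →
      (e0 + γ) * ip g g - γ * ip ψ g ^ 2 ≤ qf b U0 g g) :
    ∃ K : ℝ, 0 < K ∧ ∀ l : ℝ, 0 ≤ l → l * K < γ → ∃ f e,
      GS b (fun x => U0 x + l * W x) T σ ψ f e (e0 + γ) ∧ e0 ≤ e ∧ e ≤ e0 + l * K ∧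
        γ * ∫ x, (f x - ψ x) ^ 2 ≤ 2 * (l * K) := by
  refine ⟨|∫ x, W x * ψ x * ψ x| + 1, by positivity, fun l hl hlK => ?_⟩
  have h1 : qf b (fun x => U0 x + l * W x) ψ ψ ≤ e0 + l * (|∫ x, W x * ψ x * ψ x| + 1) := by
    rw [hU.qf_add_pot (hW.const_mul l) hψ hψ, he]
    simp only [mul_assoc l, integral_const_mul]
    nlinarith [le_abs_self (∫ x, W x * ψ x * ψ x)]
  obtain ⟨f, e, k1, k2, k3, k4, k5, k6, k7, k8, k9, k10⟩ := exists_min (hU.add (hW.const_mul l)) hT hTT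
    (fun x => by simp only [hUT, hWT]) hσ hψ.1 (E' := e0 + γ)
    (fun g hg hs ho => by
      have := (hgap g hg hs).trans (mb_qf_le hU hW h0 hl hg)
      rwa [ho, sq, mul_zero, mul_zero, sub_zero] at this) hψ hψT (by rw [hn]; linarith)
  have h2 := (hgap f k2 k3).trans (mb_qf_le hU hW h0 hl k2)
  have h3 := mb_ip_le hψ.1 k2.1 hn
  have h4 := dist_sq_of_ip k2.1 hψ.1 k4 hn (by rw [mb_ip_comm]; exact k5.le)
  rw [k4, k6] at h2
  rw [k4] at h3
  rw [hn] at k7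
  rw [mb_ip_comm] at h4
  exact ⟨f, e, ⟨k1, k2, k3, k4, k5, k8, k9, k10⟩, by nlinarith, by linarith, by nlinarith⟩

end gen

variable {c C D : ℝ} {g u : X → ℝ} {eg eu : ℝ}

theorem OB.exists2 (h : OB c C D g u eg eu) : ∃ K : ℝ, 0 < K ∧ ∀ l : ℝ, 0 ≤ l → l * K < eu - eg →
    ∃ Ψ e, GS eY (U2 D l) (fun x => x) 1 (fun y => g y.1 * g y.2) Ψ e (eg + eu) ∧ 2 * eg ≤ e ∧
      e ≤ 2 * eg + l * K ∧ (eu - eg) * ∫ y : Y, (Ψ y - g y.1 * g y.2) ^ 2 ≤ 2 * (l * K) ∧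
      (∀ y : Y, Ψ y.swap = Ψ y) ∧ ∀ y : Y, Ψ (rfY y) = Ψ y := by
  obtain ⟨K, hK, H⟩ := mb_exists (pot_V2 D) pot_W2 W2_nonneg sym_id (fun _ => rfl) (fun _ => rfl)
    (fun _ => rfl) (σ := 1) (Or.inl rfl) h.gg_h1 (fun _ => (one_mul _).symm) h.gg_nrm
    (sub_pos.2 h.lt) (e0 := 2 * eg)
    (((pot_V D).eig_tensor (pot_V D) h.hg h.hg h.eqg h.eqg h.gg_h1).trans (by rw [h.gg_nrm]; ring))
    fun G hG _ => le_of_eq_of_le (by ring) (h.gapA G hG)
  refine ⟨K, hK, fun l hl hlK => ?_⟩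
  obtain ⟨f, e, k, k1, k2, k3⟩ := H l hl hlK
  rw [← U2_eq, show 2 * eg + (eu - eg) = eg + eu by ring] at k
  obtain ⟨s1, t1⟩ := k.addSym sym_swap (U2_swap D l) (τ := 1) (by norm_num)
    (fun y => by simp only [Prod.fst_swap, Prod.snd_swap]; ring) fun _ => rfl
  obtain ⟨s2, t2⟩ := s1.addSym sym_rfY (U2_rf D l) (τ := 1) (by norm_num)
    (fun y => by simp only [rfY, h.g_even]; ring) fun _ => rfl
  refine ⟨_, e, s2, k1, k2, ?_, fun y => ?_, fun y => ?_⟩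
  · rw [t2, t1]; exact k3
  · have h2 : rfY y.swap = (rfY y).swap := rfl
    simp only [Prod.swap_swap, h2]
    ring
  · have : rfY (rfY y) = y := by simp only [rfY, rf_rf]
    simp only [this]
    ring

theorem OB.exists3 (h : OB c C D g u eg eu) : ∃ K : ℝ, 0 < K ∧ ∀ l : ℝ, 0 ≤ l →
    l * K < min (eu - eg) c → ∃ A e, GS eZ (U3 D l) (fun p => (p.2.1, (p.1, p.2.2))) (-1) (A0 g u) A e
      (2 * eg + eu + min (eu - eg) c) ∧ 2 * eg + eu ≤ e ∧ e ≤ 2 * eg + eu + l * K ∧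
      min (eu - eg) c * ∫ p, (A p - A0 g u p) ^ 2 ≤ 2 * (l * K) ∧ ∀ p, A (rfZ p) = -A p := by
  obtain ⟨K, hK, H⟩ := mb_exists (pot_V3 D) pot_W3 W3_nonneg sym_12 (fun _ => rfl)
    (fun p => by simp only [V3, V2]; ring)
    (fun p => by simp only [W3, W2, Wx, norm_sub_rev p.2.1 p.1]; ring) (σ := -1) (Or.inr rfl) h.A0_h1
    (fun p => by simp only [A0]; ring) h.A0_nrm (lt_min (sub_pos.2 h.lt) h.c_pos) (e0 := 2 * eg + eu)
    (by rw [h.A0_eig _ h.A0_h1, h.A0_nrm, mul_one])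
    fun G hG ha => h.gap3 G hG fun x y z => by simpa using ha (x, (y, z))
  refine ⟨K, hK, fun l hl hlK => ?_⟩
  obtain ⟨f, e, k, k1, k2, k3⟩ := H l hl hlK
  rw [← U3_eq] at k
  obtain ⟨s1, t1⟩ := k.addSym sym_rfZ (U3_rf D l) (τ := -1) (by norm_num)
    (fun p => by simp only [A0, rfZ, rfY, h.g_even, h.u_odd]; ring) fun _ => rfl
  refine ⟨_, e, s1, k1, k2, by rw [t1]; exact k3, fun p => ?_⟩
  have : rfZ (rfZ p) = p := by simp only [rfZ, rfY, rf_rf]
  simp only [this]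
  ring

end Crest.Agent.R335
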