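/-
R335/MB/Ag: part of block MB (helper17)
-/
import Crest.Agent.R335.MB.Gap
import Crest.Agent.R335.T.Poin

set_option autoImplicit false
set_option linter.unusedSectionVars false
set_option linter.unusedVariables false
set_option linter.unusedSimpArgs false

noncomputable section

namespace Crest.Agent.R335

open MeasureTheory Set Filter Topology Metric
open scoped ENNReal

section gen
variable {E : Type} [NormedAddCommGroup E] [NormedSpace ℝ E] [FiniteDimensional ℝ E]
  [MeasureSpace E] [BorelSpace E] [(volume : Measure E).IsAddHaarMeasure]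
  {ι : Type} [Fintype ι] {b : ι → E}
  {E' : Type} [NormedAddCommGroup E'] [NormedSpace ℝ E'] [FiniteDimensional ℝ E']
  [MeasureSpace E'] [BorelSpace E'] [(volume : Measure E').IsAddHaarMeasure]
  {ι' : Type} [Fintype ι'] {b' : ι' → E'}

/-- Data for Agmon's inequality with `n` electrons. -/
structure Ag (b : ι → E) (U r : E → ℝ) (n B T : ℝ) (L ω : E → ℝ) : Prop where
  mL : Measurable L
  bL : ∀ x, |L x| ≤ n
  low : ∀ g, H1 b g → ∫ x, L x * g x ^ 2 ≤ qf b U g g
  cω : ContDiff ℝ 1 ω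
  bω : ∃ M, ∀ x, |ω x| ≤ M
  dω : ∀ x, ‖fderiv ℝ ω x‖ ≤ n
  all : ∀ x, -(103 / 200) * n ≤ L x - (∑ i, fderiv ℝ ω x (b i) ^ 2) / 2
  inn : ∀ x, L x - (∑ i, fderiv ℝ ω x (b i) ^ 2) / 2 < -(103 / 200) * n + 1 / 10 → ω x ≤ n
  far : ∀ x, ‖x‖ ≤ T → 9 / 10 * r x - n * B ≤ ω x

theorem mb_lift {U L : E → ℝ} {U' L' : E' → ℝ} (hU : Pot b U) (hU' : Pot b' U') (hL : Measurable L)
    (hL' : Measurable L') {n n' : ℝ} (hn : ∀ x, |L x| ≤ n) (hn' : ∀ x, |L' x| ≤ n')
    (h : ∀ g, H1 b g → ∫ x, L x * g x ^ 2 ≤ qf b U g g)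
    (h' : ∀ g, H1 b' g → ∫ x, L' x * g x ^ 2 ≤ qf b' U' g g) {F : E × E' → ℝ} (hF : H1 (pb b b') F) :
    ∫ p : E × E', (L p.1 + L' p.2) * F p ^ 2 ≤ qf (pb b b') (fun p => U p.1 + U' p.2) F F := by
  obtain ⟨i1, i2, e⟩ := hU.qf_pb hU' hF hF
  have m1 := apx_memLp_mul hF.1 (a := fun p => L p.1) (hL.comp measurable_fst).aestronglyMeasurable
    (Eventually.of_forall fun p => hn _)
  have m2 := apx_memLp_mul hF.1 (a := fun p => L' p.2) (hL'.comp measurable_snd).aestronglyMeasurable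
    (Eventually.of_forall fun p => hn' _)
  obtain ⟨j1, e1⟩ := ip_prod' m1 hF.1
  obtain ⟨j2, e2⟩ := ip_prod m2 hF.1
  have l1 := integral_mono_ae j1 i1 (hF.slice_left.mono fun y hy => by
    simpa only [sq, mul_assoc] using h _ hy.1)
  have l2 := integral_mono_ae j2 i2 (hF.slice_right.mono fun x hx => by
    simpa only [sq, mul_assoc] using h' _ hx.1)
  rw [e, ← e1] at *
  rw [← e2] at l2
  refine le_of_eq_of_le ?_ (add_le_add l1 l2)
  refine Eq.trans ?_ (integral_add (m1.integrable_mul hF.1) (m2.integrable_mul hF.1))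
  congr 1; funext p; simp only [Pi.mul_apply]; ring

theorem Ag.prod {U r L ω : E → ℝ} {U' r' L' ω' : E' → ℝ} {n n' B T : ℝ} (hU : Pot b U)
    (hU' : Pot b' U') (h : Ag b U r n B T L ω) (h' : Ag b' U' r' n' B T L' ω') :
    Ag (pb b b') (fun p => U p.1 + U' p.2) (fun p => r p.1 + r' p.2) (n + n') B T
      (fun p => L p.1 + L' p.2) fun p => ω p.1 + ω' p.2 := by
  have hd : ∀ (p v : E × E'), fderiv ℝ (fun p : E × E' => ω p.1 + ω' p.2) p v =
      fderiv ℝ ω p.1 v.1 + fderiv ℝ ω' p.2 v.2 := fun p v => by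
    have := ((h.cω.differentiable one_ne_zero p.1).hasFDerivAt.comp p hasFDerivAt_fst).add
      ((h'.cω.differentiable one_ne_zero p.2).hasFDerivAt.comp p hasFDerivAt_snd)
    exact congrArg (fun L : E × E' →L[ℝ] ℝ => L v) this.fderiv
  have hs : ∀ p : E × E', ∑ i, fderiv ℝ (fun p : E × E' => ω p.1 + ω' p.2) p (pb b b' i) ^ 2 =
      ∑ i, fderiv ℝ ω p.1 (b i) ^ 2 + ∑ i, fderiv ℝ ω' p.2 (b' i) ^ 2 := fun p => by
    simp [hd, pb, Fintype.sum_sum_type]
  have hn : 0 ≤ n := (abs_nonneg _).trans (h.bL 0)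
  have hn' : 0 ≤ n' := (abs_nonneg _).trans (h'.bL 0)
  obtain ⟨M, hM⟩ := h.bω
  obtain ⟨M', hM'⟩ := h'.bω
  refine ⟨(h.mL.comp measurable_fst).add (h'.mL.comp measurable_snd),
    fun p => (abs_add_le _ _).trans (add_le_add (h.bL _) (h'.bL _)),
    fun g hg => mb_lift hU hU' h.mL h'.mL h.bL h'.bL h.low h'.low hg,
    (h.cω.comp contDiff_fst).add (h'.cω.comp contDiff_snd),
    ⟨M + M', fun p => (abs_add_le _ _).trans (add_le_add (hM _) (hM' _))⟩, fun p => ?_, fun p => ?_,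
    fun p hp => ?_, fun p hp => ?_⟩
  · refine ContinuousLinearMap.opNorm_le_bound _ (by positivity) fun v => ?_
    rw [hd, add_mul]
    exact (norm_add_le _ _).trans (add_le_add
      ((ContinuousLinearMap.le_opNorm _ _).trans (mul_le_mul (h.dω _) (norm_fst_le v) (norm_nonneg _) hn))
      ((ContinuousLinearMap.le_opNorm _ _).trans
        (mul_le_mul (h'.dω _) (norm_snd_le v) (norm_nonneg _) hn')))
  · rw [hs]; linarith [h.all p.1, h'.all p.2]
  · rw [hs] at hp
    exact add_le_add (h.inn _ (by linarith [h'.all p.2])) (h'.inn _ (by linarith [h.all p.1]))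
  · linarith [h.far p.1 ((norm_fst_le p).trans hp), h'.far p.2 ((norm_snd_le p).trans hp)]

/-- Agmon's estimate on unit balls -/
theorem Ag.ball {U0 W r f : E → ℝ} {n B l e : ℝ} (hA : ∀ T, ∃ L ω, Ag b U0 r n B T L ω)
    (hr : ∀ x y, |r x - r y| ≤ 3 * ‖x - y‖) (hU : Pot b U0) (hW : Pot b W) (h0 : ∀ x, 0 ≤ W x)
    (hl : 0 ≤ l) (hf : H1 b f) (hn : ip f f = 1) (he : e ≤ -(103 / 200) * n + 7 / 100)
    (heq : ∀ φ, H1 b φ → qf b (fun x => U0 x + l * W x) f φ = e * ip f φ) (x : E) :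
    ∫ y in Metric.ball x 1, f y ^ 2 ≤
      (2 * Real.exp (n + n * B + 3) * Real.exp (-(9 / 10 * r x))) ^ 2 := by
  obtain ⟨L, ω, h⟩ := hA (‖x‖ + 1)
  obtain ⟨M, hM⟩ := h.bω
  have h1 := (hU.add (hW.const_mul l)).agmon hf heq h.mL (M := max n M)
    (fun y => (h.bL y).trans (le_max_left _ _)) (fun g hg => (h.low g hg).trans (mb_qf_le hU hW h0 hl hg))
    h.cω (fun y => (hM y).trans (le_max_right _ _)) fun y => (h.dω y).trans (le_max_left _ _)
  set s : E → ℝ := fun y => ∑ i, fderiv ℝ ω y (b i) ^ 2 with hs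
  have hsc : Continuous s := continuous_finsetSum _ fun i _ =>
    ((h.cω.continuous_fderiv one_ne_zero).clm_apply continuous_const).pow 2
  have hs0 : ∀ y, 0 ≤ s y := fun y => Finset.sum_nonneg fun _ _ => sq_nonneg _
  have i0 := hf.1.integrable_sq
  have i1 : Integrable fun y => (L y - e - s y / 2) * (Real.exp (ω y) * f y) ^ 2 := by
    have m := apx_memLp_mul hf.1 (a := fun y => Real.exp (ω y)) (M := Real.exp M)
      h.cω.continuous.rexp.aestronglyMeasurable (Eventually.of_forall fun y => by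
        rw [abs_of_pos (Real.exp_pos _)]; exact Real.exp_le_exp.2 (le_of_abs_le (hM y)))
    refine m.integrable_sq.bdd_mul (c := 3 * n + |e|)
      ((h.mL.sub_const e).sub (hsc.measurable.div_const 2)).aestronglyMeasurable
      (Eventually.of_forall fun y => ?_)
    have := h.all y
    have := abs_le.1 (h.bL y)
    rw [Real.norm_eq_abs, abs_le]
    constructor <;> linarith [hs0 y, le_abs_self e, neg_abs_le e]
  set κ := Real.exp (9 / 10 * r x - n * B - 3) ^ 2 with hκ
  have i2 : Integrable fun y => 3 / 100 * κ * (Metric.ball x 1).indicator (fun y => f y ^ 2) y :=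
    (i0.indicator measurableSet_ball).const_mul _
  have h2 := (integral_mono (i2.sub (i0.const_mul (1 / 10 * Real.exp n ^ 2))) i1 fun y => by
    have k1 : κ * (Metric.ball x 1).indicator (fun y => f y ^ 2) y ≤ (Real.exp (ω y) * f y) ^ 2 := by
      by_cases hy : y ∈ Metric.ball x 1
      · rw [indicator_of_mem hy, mul_pow]
        refine mul_le_mul_of_nonneg_right
          (pow_le_pow_left₀ (Real.exp_pos _).le (Real.exp_le_exp.2 ?_) 2) (sq_nonneg _)
        have k2 : ‖y - x‖ < 1 := by rwa [Metric.mem_ball, dist_eq_norm] at hy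
        have k3 := h.far y (by linarith [norm_sub_norm_le y x])
        linarith [abs_le.1 (hr y x)]
      · rw [indicator_of_notMem hy, mul_zero]; positivity
    have k4 := h.all y
    simp only [Pi.sub_apply]
    by_cases hc : L y - s y / 2 < -(103 / 200) * n + 1 / 10
    · have k5 : (Real.exp (ω y) * f y) ^ 2 ≤ Real.exp n ^ 2 * f y ^ 2 := by
        rw [mul_pow]
        exact mul_le_mul_of_nonneg_right
          (pow_le_pow_left₀ (Real.exp_pos _).le (Real.exp_le_exp.2 (h.inn y hc)) 2) (sq_nonneg _)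
      nlinarith [mul_le_mul_of_nonneg_right (show -(7 / 100) ≤ L y - e - s y / 2 by linarith)
        (sq_nonneg (Real.exp (ω y) * f y))]
    · nlinarith [mul_le_mul_of_nonneg_right (show 3 / 100 ≤ L y - e - s y / 2 by linarith)
        (sq_nonneg (Real.exp (ω y) * f y)), mul_nonneg (sq_nonneg (Real.exp n)) (sq_nonneg (f y))]).trans h1
  have h3 : ∫ y, f y ^ 2 = 1 := by simpa only [ip, sq] using hn
  rw [integral_sub' i2 (i0.const_mul _), integral_const_mul, integral_const_mul,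
    integral_indicator measurableSet_ball, h3] at h2
  have h4 : κ * (Real.exp (n + n * B + 3) * Real.exp (-(9 / 10 * r x))) ^ 2 = Real.exp n ^ 2 := by
    rw [hκ, ← mul_pow, ← Real.exp_add, ← Real.exp_add]; congr 2; ring
  have h5 : 0 < κ := by positivity
  refine le_of_mul_le_mul_left ?_ h5
  nlinarith [sq_nonneg (Real.exp n)]

end gen

theorem mb_ims {U f θ : X → ℝ} (hU : Pot eX U) (hf : H1 eX f) (hθ : ContDiff ℝ 1 θ)
    (hM : ∀ x, ‖fderiv ℝ θ x‖ ≤ 1 / 10) :
    H1 eX (fun x => Real.cos (θ x) * f x) ∧ H1 eX (fun x => Real.sin (θ x) * f x) ∧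
    qf eX U (fun x => Real.cos (θ x) * f x) (fun x => Real.cos (θ x) * f x) +
      qf eX U (fun x => Real.sin (θ x) * f x) (fun x => Real.sin (θ x) * f x) ≤
        qf eX U f f + 1 / 200 * ip f f := by
  have d1 : ∀ x, ‖fderiv ℝ (fun x => Real.cos (θ x)) x‖ ≤ |Real.sin (θ x)| / 10 := fun x => by
    rw [fderiv_cos (hθ.differentiable one_ne_zero x), norm_smul, norm_neg, Real.norm_eq_abs]
    linarith [mul_le_mul_of_nonneg_left (hM x) (abs_nonneg (Real.sin (θ x)))]
  have d2 : ∀ x, ‖fderiv ℝ (fun x => Real.sin (θ x)) x‖ ≤ |Real.cos (θ x)| / 10 := fun x => by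
    rw [fderiv_sin (hθ.differentiable one_ne_zero x), norm_smul, Real.norm_eq_abs]
    linarith [mul_le_mul_of_nonneg_left (hM x) (abs_nonneg (Real.cos (θ x)))]
  have d1' := fun x => (d1 x).trans (show _ ≤ 1 by linarith [Real.abs_sin_le_one (θ x)])
  have d2' := fun x => (d2 x).trans (show _ ≤ 1 by linarith [Real.abs_cos_le_one (θ x)])
  have b1 := fun x => Real.abs_cos_le_one (θ x)
  have b2 := fun x => Real.abs_sin_le_one (θ x)
  have c1 := hf.mul_contDiff hθ.cos b1 d1'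
  have c2 := hf.mul_contDiff hθ.sin b2 d2'
  have c3 : H1 eX fun x => Real.cos (θ x) ^ 2 * f x := by
    simpa only [sq, mul_assoc] using c1.mul_contDiff hθ.cos b1 d1'
  have c4 : H1 eX fun x => Real.sin (θ x) ^ 2 * f x := by
    simpa only [sq, mul_assoc] using c2.mul_contDiff hθ.sin b2 d2'
  have e1 := c3.dir_add_left c4 hf
  simp only [← add_mul, Real.cos_sq_add_sin_sq, one_mul] at e1
  have e2 : (∫ x, U x * (Real.cos (θ x) * f x) * (Real.cos (θ x) * f x)) +
      ∫ x, U x * (Real.sin (θ x) * f x) * (Real.sin (θ x) * f x) = ∫ x, U x * f x * f x := by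
    rw [← integral_add (hU.integrable c1 c1.1) (hU.integrable c2 c2.1)]
    congr 1; funext x
    linear_combination (U x * f x * f x) * Real.cos_sq_add_sin_sq (θ x)
  have e3 : ∀ {χ s : X → ℝ}, MemLp (fun x => s x * f x) 2 volume →
      (∀ x, ‖fderiv ℝ χ x‖ ≤ |s x| / 10) → ∫ x, (∑ i, fderiv ℝ χ x (eX i) ^ 2) * f x ^ 2 ≤
        ∫ x, 1 / 100 * (s x * f x) ^ 2 := fun {χ s} hs hd => by
    refine integral_mono_of_nonneg (Eventually.of_forall fun x => by positivity)
      (hs.integrable_sq.const_mul _) (Eventually.of_forall fun x => ?_)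
    have := pow_le_pow_left₀ (norm_nonneg _) (hd x) 2
    rw [div_pow, sq_abs] at this
    simp only [sum_fderiv_sq]
    nlinarith [mul_le_mul_of_nonneg_right this (sq_nonneg (f x))]
  have e4 : (∫ x, 1 / 100 * (Real.sin (θ x) * f x) ^ 2) + ∫ x, 1 / 100 * (Real.cos (θ x) * f x) ^ 2 =
      1 / 100 * ip f f := by
    rw [← integral_add (c2.1.integrable_sq.const_mul _) (c1.1.integrable_sq.const_mul _), ip,
      ← integral_const_mul]
    congr 1; funext x
    linear_combination (1 / 100 * f x * f x) * Real.cos_sq_add_sin_sq (θ x)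
  refine ⟨c1, c2, ?_⟩
  simp only [qf]
  rw [hf.dir_mul hθ.cos b1 d1', hf.dir_mul hθ.sin b2 d2', dir_comm f (fun x => _ * f x),
    dir_comm f (fun x => _ * f x)]
  linarith [e3 c2.1 d1, e3 c1.1 d2]

variable {c C D : ℝ} {g u : X → ℝ} {eg eu : ℝ}

theorem mb_tp (hD : 0 ≤ D) (x : X) : ‖x‖ - D ≤ tp D x ∧ ‖x‖ - D ≤ tm D x := by
  have h : ‖nuc D‖ = D := by simp [nuc, abs_of_nonneg hD]
  refine ⟨by simpa [h, tp] using norm_sub_norm_le x (nuc D), ?_⟩
  simpa [h, tm] using norm_sub_norm_le x (-nuc D)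

/-- the one-body form is bounded below by a step function -/
theorem OB.step (h : OB c C D g u eg eu) : ∃ ρ : ℝ, 0 ≤ ρ ∧ ∀ f, H1 eX f →
    ∫ x, (if ‖x‖ ≤ ρ then -(51 / 100) else -(1 / 100)) * f x ^ 2 ≤ qf eX (V D) f f := by
  obtain ⟨K, hK, H⟩ := exists_radial_cutoff
  have hD := h.D_ge
  obtain ⟨χ, c1, -, -, c2, c3, c4, -⟩ := H 0 (D + 500) (20 * K) (by linarith) (by linarith)
  refine ⟨D + 500 + 20 * K, by linarith, fun f hf => ?_⟩
  have hχ : ContDiff ℝ 1 χ := c1.of_le (by norm_num)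
  obtain ⟨k1, k2, k3⟩ := mb_ims (pot_V D) hf (θ := fun x => Real.pi / 2 * χ x)
    (contDiff_const.mul hχ) fun x => by
      rw [fderiv_const_mul (hχ.differentiable one_ne_zero x), norm_smul,
        Real.norm_of_nonneg (by positivity)]
      have := c4 x
      rw [show K / (20 * K) = 1 / 20 by field_simp] at this
      nlinarith [Real.pi_le_four, norm_nonneg (fderiv ℝ χ x)]
  have k4 := h.gap1 _ k2
  have k5 := mb_ip_le h.hg.1 k2.1 h.ng
  have k6 : ∫ x, -(4 / 1000) * (Real.cos (Real.pi / 2 * χ x) * f x) ^ 2 ≤ qf eX (V D)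
      (fun x => Real.cos (Real.pi / 2 * χ x) * f x) fun x => Real.cos (Real.pi / 2 * χ x) * f x := by
    refine le_trans (integral_mono (k1.1.integrable_sq.const_mul _) ((pot_V D).integrable k1 k1.1)
      fun x => ?_) (le_add_of_nonneg_left (div_nonneg (dir_self_nonneg _) two_pos.le))
    by_cases hx : ‖x‖ ≤ D + 500
    · simp [c2 x (by simpa using hx)]
    · obtain ⟨t1, t2⟩ := mb_tp (D := D) (by linarith) x
      have t3 := one_div_le_one_div_of_le (by norm_num : (0 : ℝ) < 500) (show 500 ≤ tp D x by linarith)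
      have t4 := one_div_le_one_div_of_le (by norm_num : (0 : ℝ) < 500) (show 500 ≤ tm D x by linarith)
      have t5 : -(4 / 1000) ≤ V D x := by simp only [V, neg_div]; linarith
      exact (mul_le_mul_of_nonneg_right t5 (sq_nonneg _)).trans_eq (by ring)
  have k7 : ∫ x, (if ‖x‖ ≤ D + 500 + 20 * K then -(51 / 100) else -(1 / 100)) * f x ^ 2 ≤
      ∫ x, (-(4 / 1000) * (Real.cos (Real.pi / 2 * χ x) * f x) ^ 2 +
        -(501 / 1000) * (Real.sin (Real.pi / 2 * χ x) * f x) ^ 2) + -(1 / 200) * f x ^ 2 := by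
    refine integral_mono (hf.1.integrable_sq.bdd_mul (c := 1)
      (Measurable.ite (measurableSet_le measurable_norm measurable_const) measurable_const
        measurable_const).aestronglyMeasurable (Eventually.of_forall fun x => ?_))
      (((k1.1.integrable_sq.const_mul _).add (k2.1.integrable_sq.const_mul _)).add
        (hf.1.integrable_sq.const_mul _)) fun x => ?_
    · split_ifs <;> norm_num [abs_of_pos]
    · have := Real.cos_sq_add_sin_sq (Real.pi / 2 * χ x)
      simp only [mul_pow]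
      split_ifs with hx
      · nlinarith [mul_nonneg (sq_nonneg (Real.cos (Real.pi / 2 * χ x))) (sq_nonneg (f x)),
          sq_nonneg (f x)]
      · simp only [c3 x (by simpa using (not_le.1 hx).le), mul_zero, Real.cos_zero, Real.sin_zero]
        nlinarith [sq_nonneg (f x)]
  rw [integral_add (by exact (k1.1.integrable_sq.const_mul _).add (k2.1.integrable_sq.const_mul _))
    (hf.1.integrable_sq.const_mul _), integral_add (k1.1.integrable_sq.const_mul _)
      (k2.1.integrable_sq.const_mul _), integral_const_mul (-(501 / 1000)),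
      integral_const_mul (-(1 / 200))] at k7
  simp only [ip, ← sq] at k3 k4 k5
  have k8 : 0 ≤ ∫ x, (Real.sin (Real.pi / 2 * χ x) * f x) ^ 2 := integral_nonneg fun _ => sq_nonneg _
  nlinarith [mul_le_mul_of_nonneg_left k5 (sub_nonneg.2 h.lt.le),
    mul_le_mul_of_nonneg_right (abs_le.1 h.eg_near).1 k8]

theorem mb_k {R T : ℝ} (hRT : R ≤ T) : ∃ k k' : ℝ → ℝ, ContDiff ℝ 1 k ∧
    (∀ s, HasDerivAt k (k' s) s) ∧ (∀ s, 0 ≤ k' s ∧ k' s ≤ 1 ∧ k' s ≤ Real.exp (s - R)) ∧
    (∀ s, 0 ≤ k s ∧ k s ≤ T - R ∧ k s ≤ Real.exp (s - R)) ∧ ∀ s, s ≤ T → s - R - 1 ≤ k s := by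
  have hp : ∀ a s : ℝ, 0 < 1 + Real.exp (s - a) := fun a s => by positivity
  have hc : ∀ a : ℝ, ContDiff ℝ 1 fun s => Real.log (1 + Real.exp (s - a)) := fun a =>
    ContDiff.log (by fun_prop) fun s => (hp a s).ne'
  have hd : ∀ a s : ℝ, HasDerivAt (fun s => Real.log (1 + Real.exp (s - a)))
      (Real.exp (s - a) / (1 + Real.exp (s - a))) s := fun a s => by
    simpa using ((((hasDerivAt_id s).sub_const a).exp).const_add 1).log (hp a s).ne'
  refine ⟨fun s => Real.log (1 + Real.exp (s - R)) - Real.log (1 + Real.exp (s - T)), _,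
    (hc R).sub (hc T), fun s => (hd R s).sub (hd T s), fun s => ?_, fun s => ?_, fun s hs => ?_⟩
  · have h1 : Real.exp (s - T) ≤ Real.exp (s - R) := Real.exp_le_exp.2 (by linarith)
    have h2 : 0 ≤ Real.exp (s - T) / (1 + Real.exp (s - T)) := by positivity
    refine ⟨sub_nonneg.2 ((div_le_div_iff₀ (hp _ _) (hp _ _)).2 (by nlinarith)), ?_, ?_⟩
    · linarith [(div_le_one (hp R s)).2 (show Real.exp (s - R) ≤ _ by linarith)]
    · linarith [div_le_self (Real.exp_pos (s - R)).le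
        (show 1 ≤ 1 + Real.exp (s - R) by linarith [Real.exp_pos (s - R)])]
  · have h1 : Real.exp (s - T) ≤ Real.exp (s - R) := Real.exp_le_exp.2 (by linarith)
    have h2 : 0 ≤ Real.log (1 + Real.exp (s - T)) :=
      Real.log_nonneg (by linarith [Real.exp_pos (s - T)])
    refine ⟨sub_nonneg.2 (Real.log_le_log (hp _ _) (by linarith)), ?_, ?_⟩
    · have h3 : 1 + Real.exp (s - R) ≤ Real.exp (T - R) * (1 + Real.exp (s - T)) := by
        rw [mul_add, mul_one, ← Real.exp_add, show T - R + (s - T) = s - R by ring]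
        linarith [Real.one_le_exp (sub_nonneg.2 hRT)]
      have h4 := Real.log_le_log (hp _ _) h3
      rw [Real.log_mul (Real.exp_pos _).ne' (hp _ _).ne', Real.log_exp] at h4
      linarith
    · linarith [Real.log_le_sub_one_of_pos (hp R s)]
  · have h1 := Real.log_le_log (Real.exp_pos (s - R)) (show _ ≤ 1 + Real.exp (s - R) by linarith)
    rw [Real.log_exp] at h1
    linarith [Real.log_le_sub_one_of_pos (hp T s), Real.exp_le_one_iff.2 (sub_nonpos.2 hs)]

theorem OB.ag (h : OB c C D g u eg eu) :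
    ∃ B : ℝ, ∀ T, ∃ L ω, Ag eX (V D) (fun x => ‖x‖) 1 B T L ω := by
  obtain ⟨ρ, hρ, H⟩ := h.step
  refine ⟨ρ + 12, fun T => ?_⟩
  obtain ⟨k, k', c1, c2, c3, c4, c5⟩ := mb_k (le_max_left (ρ + 11) (T + 1))
  have hp : ∀ x : X, 0 < 1 + ‖x‖ ^ 2 := fun x => by positivity
  have a1 : ∀ x : X, ‖x‖ ≤ √(1 + ‖x‖ ^ 2) := fun x => Real.le_sqrt_of_sq_le (by linarith)
  have a2 : ∀ x : X, √(1 + ‖x‖ ^ 2) ≤ ‖x‖ + 1 := fun x =>
    Real.sqrt_le_iff.2 ⟨by positivity, by nlinarith [norm_nonneg x]⟩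
  have a3 : ContDiff ℝ 1 fun x : X => √(1 + ‖x‖ ^ 2) :=
    (contDiff_const.add (contDiff_norm_sq ℝ)).sqrt fun x => (hp x).ne'
  have a4 : ∀ x : X, ‖fderiv ℝ (fun x : X => 9 / 10 * k √(1 + ‖x‖ ^ 2)) x‖ ≤
      9 / 10 * k' √(1 + ‖x‖ ^ 2) := fun x => by
    have t1 := ((hasStrictFDerivAt_norm_sq x).hasFDerivAt.const_add 1).sqrt (hp x).ne'
    have t2 := ((c2 _).comp_hasFDerivAt x t1).const_mul (9 / 10)
    have t3 : 0 < √(1 + ‖x‖ ^ 2) := Real.sqrt_pos.2 (hp x)
    refine (congrArg norm t2.fderiv).trans_le ?_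
    rw [norm_smul, norm_smul, norm_smul, Real.norm_of_nonneg (c3 _).1,
      Real.norm_of_nonneg (by positivity), Real.norm_of_nonneg (by positivity)]
    refine mul_le_mul_of_nonneg_left (mul_le_of_le_one_right (c3 _).1 ?_) (by norm_num)
    rw [two_nsmul, one_div, inv_mul_le_iff₀ (by positivity)]
    refine (norm_add_le _ _).trans ?_
    rw [innerSL_apply_norm]
    linarith [a1 x]
  have a5 : ∀ x : X, ‖x‖ ≤ ρ → Real.exp (√(1 + ‖x‖ ^ 2) - (ρ + 11)) ≤ 1 / 10 := fun x hx => by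
    refine (Real.exp_le_exp.2 (show _ ≤ -10 by linarith [a2 x])).trans ?_
    rw [Real.exp_neg, inv_le_comm₀ (Real.exp_pos _) (by norm_num)]
    linarith [Real.add_one_le_exp 10]
  have a6 : ∀ (x : X) (t : ℝ), k' √(1 + ‖x‖ ^ 2) ≤ t →
      ‖fderiv ℝ (fun x : X => 9 / 10 * k √(1 + ‖x‖ ^ 2)) x‖ ^ 2 ≤ (9 / 10 * t) ^ 2 := fun x t ht =>
    pow_le_pow_left₀ (norm_nonneg _) ((a4 x).trans (by linarith)) 2
  refine ⟨_, fun x => 9 / 10 * k √(1 + ‖x‖ ^ 2),
    Measurable.ite (measurableSet_le measurable_norm measurable_const) measurable_const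
      measurable_const, fun x => ?_, H, contDiff_const.mul (c1.comp a3),
    ⟨max (ρ + 11) (T + 1) - (ρ + 11), fun x => ?_⟩, fun x => (a4 x).trans (by linarith [(c3 √(1 + ‖x‖ ^ 2)).2.1]),
    fun x => ?_, fun x hx => ?_, fun x hx => ?_⟩
  · split_ifs <;> norm_num [abs_of_pos]
  · rw [abs_of_nonneg (mul_nonneg (by norm_num) (c4 _).1)]
    linarith [(c4 √(1 + ‖x‖ ^ 2)).1, (c4 √(1 + ‖x‖ ^ 2)).2.1]
  · rw [sum_fderiv_sq]
    split_ifs with hx
    · linarith [a6 x _ ((c3 _).2.2.trans (a5 x hx))]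
    · linarith [a6 x _ (c3 _).2.1]
  · rw [sum_fderiv_sq] at hx
    split_ifs at hx with hx'
    · linarith [(c4 √(1 + ‖x‖ ^ 2)).2.2, a5 x hx']
    · linarith [a6 x _ (c3 _).2.1]
  · linarith [c5 √(1 + ‖x‖ ^ 2) (le_trans (by linarith [a2 x]) (le_max_right _ _)), a1 x]

end Crest.Agent.R335
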