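/-
R335/MB/Pt: part of block MB (helper17)
-/
import Crest.Agent.R335.MB.Ag
import Crest.Agent.R335.T.MVG

set_option autoImplicit false
set_option linter.unusedSectionVars false
set_option linter.unusedVariables false
set_option linter.unusedSimpArgs false

noncomputable section

namespace Crest.Agent.R335

open MeasureTheory Set Filter Topology Metric
open scoped ENNReal

theorem mb_prod_int {α β : Type} [MeasurableSpace α] [MeasurableSpace β] (μ : Measure α)
    (ν : Measure β) [SFinite μ] [IsFiniteMeasure ν] {K : α × β → ℝ} (hK : Measurable K)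
    (h0 : ∀ p, 0 ≤ K p) {a : ℝ}
    (h : ∀ y, Integrable (fun x => K (x, y)) μ ∧ ∫ x, K (x, y) ∂μ ≤ a) :
    Integrable K (μ.prod ν) ∧ ∫ p, K p ∂(μ.prod ν) ≤ a * ν.real univ := by
  have h1 : Integrable (fun y => ∫ x, K (x, y) ∂μ) ν :=
    (integrable_const a).mono' hK.stronglyMeasurable.integral_prod_left'.aestronglyMeasurable
      (Eventually.of_forall fun y => by
        rw [Real.norm_of_nonneg (integral_nonneg fun _ => h0 _)]; exact (h y).2)
  have h2 : Integrable K (μ.prod ν) := (integrable_prod_iff' hK.aestronglyMeasurable).2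
    ⟨Eventually.of_forall fun y => (h y).1, by simpa only [Real.norm_of_nonneg (h0 _)] using h1⟩
  refine ⟨h2, ?_⟩
  rw [integral_prod_symm _ h2]
  simpa [mul_comm] using integral_mono h1 (integrable_const a) fun y => (h y).2

section gen
variable {E : Type} [NormedAddCommGroup E] [NormedSpace ℝ E] [FiniteDimensional ℝ E]
  [MeasureSpace E] [BorelSpace E] [(volume : Measure E).IsAddHaarMeasure]
  {ι : Type} [Fintype ι] {b : ι → E}
  {E' : Type} [NormedAddCommGroup E'] [NormedSpace ℝ E'] [FiniteDimensional ℝ E']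
  [MeasureSpace E'] [BorelSpace E'] [(volume : Measure E').IsAddHaarMeasure]

/-- Integrals over small balls. -/
def BI (U : E → ℝ) (M : ℝ) : Prop := ∀ (x : E) (t : ℝ), 0 < t → t ≤ 1 → IntegrableOn U (ball x t) ∧
  ∫ y in ball x t, U y ≤ M * t ^ Module.finrank ℝ E / t

def BE (U : E → ℝ) : Prop := Measurable U ∧ (∀ x, 0 ≤ U x) ∧ ∃ M, 0 ≤ M ∧ BI U M

variable {U U' W f : E → ℝ}

theorem mb_vol (x : E) {t : ℝ} (ht : 0 < t) : (volume.restrict (ball x t)).real univ =
    t ^ Module.finrank ℝ E * volume.real (ball (0 : E) 1) := by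
  rw [measureReal_restrict_apply_univ, measureReal_def, Measure.addHaar_ball_of_pos _ _ ht,
    ENNReal.toReal_mul, ENNReal.toReal_ofReal (by positivity), measureReal_def]

theorem BI.const_mul {M c : ℝ} (h : BI U M) (hc : 0 ≤ c) : BI (fun x => c * U x) (c * M) :=
  fun x t ht ht1 => ⟨(h x t ht ht1).1.const_mul c, by
    rw [integral_const_mul, mul_assoc, mul_div_assoc]
    exact mul_le_mul_of_nonneg_left (h x t ht ht1).2 hc⟩

theorem BE.add (h : BE U) (h' : BE U') : BE fun x => U x + U' x := by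
  obtain ⟨h1, h2, M, h3, h4⟩ := h
  obtain ⟨k1, k2, M', k3, k4⟩ := h'
  refine ⟨h1.add k1, fun x => add_nonneg (h2 x) (k2 x), M + M', add_nonneg h3 k3, fun x t ht ht1 =>
    ⟨(h4 x t ht ht1).1.add (k4 x t ht ht1).1, ?_⟩⟩
  rw [integral_add (h4 x t ht ht1).1 (k4 x t ht ht1).1, add_mul, add_div]
  exact add_le_add (h4 x t ht ht1).2 (k4 x t ht ht1).2

theorem BE.const_mul (h : BE U) {c : ℝ} (hc : 0 ≤ c) : BE fun x => c * U x := by
  obtain ⟨h1, h2, M, h3, h4⟩ := h
  exact ⟨h1.const_mul c, fun x => mul_nonneg hc (h2 x), c * M, mul_nonneg hc h3, h4.const_mul hc⟩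

theorem BE.const {c : ℝ} (hc : 0 ≤ c) : BE fun _ : E => c := by
  refine ⟨measurable_const, fun _ => hc, c * volume.real (ball (0 : E) 1), by positivity,
    fun x t ht ht1 => ⟨integrableOn_const measure_ball_lt_top.ne, ?_⟩⟩
  rw [integral_const, mb_vol x ht, smul_eq_mul]
  exact le_of_eq_of_le (by ring) (le_div_self (by positivity) ht ht1)

theorem BE.left {K : E × E' → ℝ} (hK : Measurable K) (h0 : ∀ p, 0 ≤ K p) {M : ℝ} (hM : 0 ≤ M)
    (h : ∀ y, BI (fun x => K (x, y)) M) : BE K := by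
  refine ⟨hK, h0, M * volume.real (ball (0 : E') 1), by positivity, fun x t ht ht1 => ?_⟩
  have : IsFiniteMeasure (volume.restrict (ball x.2 t)) :=
    isFiniteMeasure_restrict.2 measure_ball_lt_top.ne
  have k := mb_prod_int (volume.restrict (ball x.1 t)) (volume.restrict (ball x.2 t)) hK h0
    fun y => h y x.1 t ht ht1
  rw [Measure.prod_restrict, ball_prod_same, mb_vol _ ht] at k
  refine ⟨k.1, k.2.trans_eq ?_⟩
  rw [Module.finrank_prod]; ring

theorem BE.right {K : E × E' → ℝ} (hK : Measurable K) (h0 : ∀ p, 0 ≤ K p) {M : ℝ} (hM : 0 ≤ M)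
    (h : ∀ x, BI (fun y => K (x, y)) M) : BE K := by
  refine ⟨hK, h0, M * volume.real (ball (0 : E) 1), by positivity, fun x t ht ht1 => ?_⟩
  have : IsFiniteMeasure (volume.restrict (ball x.1 t)) :=
    isFiniteMeasure_restrict.2 measure_ball_lt_top.ne
  have k := mb_prod_int (volume.restrict (ball x.2 t)) (volume.restrict (ball x.1 t))
    (K := fun p => K p.swap) (hK.comp measurable_swap) (fun _ => h0 _) fun y => h y x.2 t ht ht1
  rw [integral_prod_swap] at k
  have k1 := integrable_swap_iff.1 k.1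
  have k2 := k.2
  rw [Measure.prod_restrict, ball_prod_same] at k1 k2
  rw [mb_vol _ ht] at k2
  refine ⟨k1, k2.trans_eq ?_⟩
  rw [Module.finrank_prod]; ring

theorem BE.fst (h : BE U) : BE fun p : E × E' => U p.1 := by
  obtain ⟨h1, h2, M, h3, h4⟩ := h
  exact BE.left (h1.comp measurable_fst) (fun _ => h2 _) h3 fun _ => h4

theorem BE.snd (h : BE U) : BE fun p : E' × E => U p.2 := by
  obtain ⟨h1, h2, M, h3, h4⟩ := h
  exact BE.right (h1.comp measurable_snd) (fun _ => h2 _) h3 fun _ => h4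

theorem mb_point (Fr : Frame b) (hd : Module.finrank ℝ E = Fintype.card ι) (hU : Pot b U)
    (hB : BE U) : ∃ C : ℝ, 0 < C ∧ ∀ (f s0 s ω : E → ℝ) (S : ℝ), H1 b f → MemLp s0 2 volume →
      (∀ φ, H1 b φ → dir b f φ = ip (fun x => U x * f x + s0 x) φ) → Measurable s → (∀ x, 0 ≤ s x) →
      (∀ᵐ x : E, SignType.sign (f x) * s0 x ≤ s x) → 0 ≤ S →
      (∀ (x : E) (t : ℝ), 0 < t → t ≤ 1 → IntegrableOn s (ball x t) ∧
        ∫ y in ball x t, s y ≤ S * Real.exp (-ω x) * t ^ Fintype.card ι / t) →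
      (∀ x y, |ω x - ω y| ≤ 3 * ‖x - y‖) →
      (∀ x : E, ∫ y in ball x 1, f y ^ 2 ≤ (S * Real.exp (-ω x)) ^ 2) →
      ∀ᵐ x : E, |f x| ≤ C * S * Real.exp (-ω x) := by
  obtain ⟨h1, h2, M, h3, h4⟩ := hB
  obtain ⟨C, hC, H⟩ := mv_global Fr M 3
  refine ⟨C, hC, fun f s0 s ω S hf hs0 he hs hs' hle hS hsb hω hb => ?_⟩
  obtain ⟨-, C', hC'⟩ := hU
  have m1 := (hC' _ hf.abs.1).1
  refine H _ U s ω S hf.abs.1 (Eventually.of_forall fun _ => abs_nonneg _) h1 h2 m1 (hd ▸ h4) hs hs' hS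
    hsb hω (by simpa only [sq_abs] using hb) fun φ hφ h0 => ?_
  refine (hf.kato ((hC' _ hf).1.add hs0) he hφ h0).trans ?_
  by_cases hi : Integrable fun x => SignType.sign (f x) * (U x * f x + s0 x) * φ x
  · have i1 : Integrable fun x => (U x * |f x| + s x) * φ x := by
      simp only [add_mul]
      exact (m1.integrable_mul hφ.memLp).add (wd_int_mul
        (fun x => ⟨ball x 1, ball_mem_nhds x one_pos, (hsb x 1 one_pos le_rfl).1⟩) hφ.cont hφ.2)
    refine integral_mono_ae hi i1 (hle.mono fun x hx => mul_le_mul_of_nonneg_right ?_ (h0 x))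
    rw [← sign_mul_self (f x)]
    simp only [Pi.add_apply]
    linarith
  · exact (integral_undef hi).trans_le (integral_nonneg fun x =>
      mul_nonneg (add_nonneg (mul_nonneg (h2 x) (abs_nonneg _)) (hs' x)) (h0 x))

theorem mb_dir (hU : Pot b U) (hf : H1 b f) {e : ℝ} {φ : E → ℝ} (hφ : H1 b φ)
    (h : qf b U f φ = e * ip f φ) : dir b f φ = ip (fun x => 2 * e * f x - 2 * (U x * f x)) φ := by
  obtain ⟨-, C, hC⟩ := hU
  rw [mb_ip_sub (hf.1.const_mul _) ((hC f hf).1.const_mul _) hφ.1, mb_ip_mul, mb_ip_mul]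
  simp only [qf, ip] at h ⊢
  linarith

theorem mb_bound (Fr : Frame b) (hd : Module.finrank ℝ E = Fintype.card ι) {U0 r : E → ℝ}
    (hU : Pot b U0) (hB : BE fun x => -2 * U0 x) (hW : Pot b W) (h0 : ∀ x, 0 ≤ W x) {n B : ℝ}
    (hA : ∀ T, ∃ L ω, Ag b U0 r n B T L ω) (hr : ∀ x y, |r x - r y| ≤ 3 * ‖x - y‖) :
    ∃ M : ℝ, ∀ (l e : ℝ) (f : E → ℝ), 0 ≤ l → H1 b f → ip f f = 1 → e ≤ -(103 / 200) * n + 7 / 100 →
      e ≤ 0 → (∀ φ, H1 b φ → qf b (fun x => U0 x + l * W x) f φ = e * ip f φ) →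
      ∀ᵐ x : E, |f x| ≤ M * Real.exp (-(9 / 10) * r x) := by
  obtain ⟨C, hC, H⟩ := mb_point Fr hd (hU.const_mul (-2)) hB
  refine ⟨C * (2 * Real.exp (n + n * B + 3)), fun l e f hl hf hn he he0 heq => ?_⟩
  obtain ⟨-, C', hC'⟩ := hW.const_mul l
  have := H f (fun x => 2 * e * f x - 2 * (l * W x * f x)) (fun _ => 0) (fun x => 9 / 10 * r x) _ hf
    ((hf.1.const_mul _).sub ((hC' f hf).1.const_mul 2))
    (fun φ hφ => by
      rw [mb_dir (hU.add (hW.const_mul l)) hf hφ (heq φ hφ)]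
      congr 1; funext x; ring) measurable_const (fun _ => le_rfl)
    (Eventually.of_forall fun x => by
      have k1 := mul_nonneg (mul_nonneg hl (h0 x)) (abs_nonneg (f x))
      have k2 := mul_nonneg (neg_nonneg.2 he0) (abs_nonneg (f x))
      rw [← sign_mul_self (f x)] at k1 k2
      linarith) (by positivity)
    (fun x t ht _ => ⟨integrableOn_zero, by rw [integral_zero]; positivity⟩)
    (fun x y => by
      rw [← mul_sub, abs_mul, abs_of_pos (by norm_num : (0 : ℝ) < 9 / 10)]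
      linarith [hr x y, norm_nonneg (x - y)])
    (Ag.ball hA hr hU hW h0 hl hf hn he heq)
  simpa only [neg_mul] using this

theorem mb_close (Fr : Frame b) (hd : Module.finrank ℝ E = Fintype.card ι) {U0 ψ : E → ℝ}
    (hU : Pot b U0) (hB : BE fun x => -2 * U0 x) (hW : Pot b W) (hWB : BE W) (hψ : H1 b ψ) {e0 : ℝ}
    (he0 : e0 ≤ 0) (hψe : ∀ φ, H1 b φ → qf b U0 ψ φ = e0 * ip ψ φ) {M K γ η : ℝ} (hM : 0 < M)
    (hK : 0 < K) (hγ : 0 < γ) (hη : 0 < η) : ∃ l0 : ℝ, 0 < l0 ∧ ∀ (l e : ℝ) (f : E → ℝ), 0 < l →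
      l < l0 → H1 b f → (∀ φ, H1 b φ → qf b (fun x => U0 x + l * W x) f φ = e * ip f φ) → e0 ≤ e →
      e ≤ e0 + l * K → γ * ∫ x, (f x - ψ x) ^ 2 ≤ 2 * (l * K) → (∀ᵐ x : E, |f x| ≤ M) →
      ∀ᵐ x : E, |f x - ψ x| ≤ η := by
  obtain ⟨C, hC, H⟩ := mb_point Fr hd (hU.const_mul (-2)) hB
  obtain ⟨m1, m2, M', m3, m4⟩ := (BE.const hK.le).add hWB
  refine ⟨min (η / C / (2 * M * (M' + 1))) (γ * (η / C) ^ 2 / (2 * K)), by positivity,
    fun l e f hl hl0 hf heq h1 h2 h3 h4 => ?_⟩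
  obtain ⟨-, C', hC'⟩ := hW.const_mul l
  have l1 := (lt_div_iff₀ (by positivity)).1 (hl0.trans_le (min_le_left _ _))
  have l2 := (lt_div_iff₀ (by positivity)).1 (hl0.trans_le (min_le_right _ _))
  have := H (fun x => f x - ψ x)
    (fun x => 2 * e0 * (f x - ψ x) + 2 * (e - e0) * f x - 2 * (l * W x * f x))
    (fun x => 2 * M * l * (K + W x)) (fun _ => 0) (η / C) (hf.sub hψ)
    ((((hf.sub hψ).1.const_mul _).add (hf.1.const_mul _)).sub ((hC' f hf).1.const_mul 2))
    (fun φ hφ => by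
      obtain ⟨-, C1, hC1⟩ := hU.add (hW.const_mul l)
      obtain ⟨-, C2, hC2⟩ := id hU
      rw [hf.dir_sub_left hψ hφ, mb_dir (hU.add (hW.const_mul l)) hf hφ (heq φ hφ),
        mb_dir hU hψ hφ (hψe φ hφ), ← mb_ip_sub
          (by exact (hf.1.const_mul _).sub ((hC1 f hf).1.const_mul 2))
          (by exact (hψ.1.const_mul _).sub ((hC2 ψ hψ).1.const_mul 2)) hφ.1]
      congr 1; funext x; ring) (m1.const_mul _) (fun x => mul_nonneg (by positivity) (m2 x))
    (h4.mono fun x hx => by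
      have k1 := mul_nonneg (neg_nonneg.2 he0) (abs_nonneg (f x - ψ x))
      rw [← sign_mul_self (f x - ψ x)] at k1
      have k2 : |(SignType.sign (f x - ψ x) : ℝ) * f x| ≤ M := by
        rw [abs_mul]
        refine (mul_le_of_le_one_left (abs_nonneg _) ?_).trans hx
        rcases SignType.trichotomy (SignType.sign (f x - ψ x)) with h | h | h <;> simp [h]
      have k3 := mul_le_mul (show e - e0 ≤ l * K by linarith) (le_of_abs_le k2)
      have k4 := mul_le_mul_of_nonneg_left (abs_le.1 k2).1 (mul_nonneg hl.le (hWB.2.1 x))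
      have k5 := mul_le_mul_of_nonneg_left (le_of_abs_le k2) (sub_nonneg.2 h1)
      have k6 := mul_le_mul_of_nonneg_right (show e - e0 ≤ l * K by linarith) hM.le
      linarith) (by positivity)
    (fun x t ht ht1 => by
      have k := m4.const_mul (c := 2 * M * l) (by positivity) x t ht ht1
      refine ⟨k.1, k.2.trans ?_⟩
      rw [hd, neg_zero, Real.exp_zero, mul_one]
      gcongr
      nlinarith [mul_pos hM hl])
    (fun x y => by simp) fun x => by
      rw [neg_zero, Real.exp_zero, mul_one]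
      refine (setIntegral_le_integral (hf.sub hψ).1.integrable_sq
        (Eventually.of_forall fun _ => sq_nonneg _)).trans (le_of_mul_le_mul_left ?_ hγ)
      linarith
  simpa [mul_div_cancel₀ _ hC.ne'] using this

end gen

theorem be_inv : ∃ M : ℝ, 0 ≤ M ∧ ∀ p : X, BI (fun x : X => 1 / ‖x - p‖) M := by
  obtain ⟨C, hC, h⟩ := int_ball_inv
  refine ⟨C, hC.le, fun p x t ht _ => ⟨(h x p t ht).1, (h x p t ht).2.trans_eq ?_⟩⟩
  rw [finrank_euclideanSpace_fin]; field_simp

theorem be_V (D : ℝ) : BE fun x => -2 * V D x := by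
  obtain ⟨M, hM, h⟩ := be_inv
  have k : ∀ p : X, BE fun x : X => 1 / ‖x - p‖ := fun p =>
    ⟨by fun_prop, fun _ => by positivity, M, hM, h p⟩
  convert ((k (nuc D)).add (k (-nuc D))).const_mul zero_le_two using 2 with x
  simp only [V, tp, tm, sub_neg_eq_add]; ring

theorem be_V2 (D : ℝ) : BE fun y => -2 * V2 D y := by
  simpa only [V2, mul_add] using (be_V D).fst.add (be_V D).snd

theorem be_V3 (D : ℝ) : BE fun y => -2 * V3 D y := by
  simpa only [V3, mul_add] using (be_V D).fst.add (be_V2 D).snd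

theorem be_W3 : BE W3 := by
  obtain ⟨M, hM, h⟩ := be_inv
  have k1 : BE W2 := BE.left (by unfold W2; fun_prop) W2_nonneg hM fun y => h y
  have k2 : BE fun p : Z => 1 / ‖p.1 - p.2.1‖ :=
    BE.left (by fun_prop) (fun _ => by positivity) hM fun y => h y.1
  have k3 : BE fun p : Z => 1 / ‖p.1 - p.2.2‖ :=
    BE.left (by fun_prop) (fun _ => by positivity) hM fun y => h y.2
  exact k1.snd.add (k2.add k3)

end Crest.Agent.R335
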