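/-
R335/MB/Main: part of block MB (helper17)
-/
import Crest.Agent.R335.Blocks
import Crest.Agent.R335.T.SNorm
import Crest.Agent.R335.T.Cmp
import Crest.Agent.R335.T.Min
import Crest.Agent.R335.T.MVG
import Crest.Agent.R335.T.DG
import Crest.Agent.R335.T.Lsc
import Crest.Agent.R335.MB.Min
import Crest.Agent.R335.MB.Pt

set_option autoImplicit false
set_option linter.unusedSectionVars false
set_option linter.unusedVariables false
set_option linter.unusedSimpArgs false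

noncomputable section

namespace Crest.Agent.R335

open MeasureTheory Set Filter Topology Metric
open scoped ENNReal

variable {c C D : ℝ} {g u : X → ℝ} {eg eu : ℝ}

theorem mb_exp (hD : 0 ≤ D) {x : X} {t : ℝ} (h0 : 0 ≤ t) (ht : ‖x‖ - D ≤ t) :
    Real.exp (-(999 / 1000) * t) ≤ Real.exp D * Real.exp (-(9 / 10) * ‖x‖) := by
  rw [← Real.exp_add]
  exact Real.exp_le_exp.2 (by linarith)

theorem OB.bd (h : OB c C D g u eg eu) :
    (∀ᵐ x : X, |g x| ≤ 2 * C * Real.exp D * Real.exp (-(9 / 10) * ‖x‖)) ∧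
      ∀ᵐ x : X, |u x| ≤ 2 * C * Real.exp D * Real.exp (-(9 / 10) * ‖x‖) := by
  have hD : 0 ≤ D := by linarith [h.D_ge]
  have hC : 0 ≤ C := by linarith [h.C_ge]
  have k : ∀ x : X, C * (Real.exp (-(999 / 1000) * tp D x) + Real.exp (-(999 / 1000) * tm D x)) ≤
      2 * C * Real.exp D * Real.exp (-(9 / 10) * ‖x‖) := fun x =>
    (mul_le_mul_of_nonneg_left (add_le_add (mb_exp hD (norm_nonneg _) (mb_tp hD x).1)
      (mb_exp hD (norm_nonneg _) (mb_tp hD x).2)) hC).trans_eq (by ring)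
  refine ⟨h.g_up.mono fun x hx => ?_, ae_of_half (h.u_up.mono fun x hx h0 => ?_)
    (Eventually.of_forall fun x hx => by rwa [h.u_odd, abs_neg, norm_rf] at hx)⟩
  · rw [abs_of_nonneg (h.g_nn x)]; exact hx.trans (k x)
  · rw [abs_of_nonneg (h.u_nn x h0)]
    refine (hx h0).trans (le_trans (mul_le_mul_of_nonneg_left ?_ hC) (k x))
    linarith [Real.exp_pos (-(999 / 1000) * tm D x)]

theorem mb_lip2 (x y : Y) : |‖x.1‖ + ‖x.2‖ - (‖y.1‖ + ‖y.2‖)| ≤ 2 * ‖x - y‖ := by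
  have h1 := abs_le.1 ((abs_norm_sub_norm_le x.1 y.1).trans (norm_fst_le (x - y)))
  have h2 := abs_le.1 ((abs_norm_sub_norm_le x.2 y.2).trans (norm_snd_le (x - y)))
  rw [abs_le]; constructor <;> linarith

theorem mb_lip3 (x y : Z) :
    |‖x.1‖ + (‖x.2.1‖ + ‖x.2.2‖) - (‖y.1‖ + (‖y.2.1‖ + ‖y.2.2‖))| ≤ 3 * ‖x - y‖ := by
  have h1 := abs_le.1 ((abs_norm_sub_norm_le x.1 y.1).trans (norm_fst_le (x - y)))
  have h2 := abs_le.1 ((mb_lip2 x.2 y.2).trans
    (mul_le_mul_of_nonneg_left (norm_snd_le (x - y)) zero_le_two))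
  rw [abs_le]; constructor <;> linarith

theorem stMB : StMB := by
  intro c C D g u eg eu h
  obtain ⟨B, hB⟩ := h.ag
  have a2 : ∀ T, ∃ L ω, Ag eY (V2 D) (fun y => ‖y.1‖ + ‖y.2‖) (1 + 1) B T L ω := fun T => by
    obtain ⟨L, ω, k⟩ := hB T
    exact ⟨_, _, k.prod (pot_V D) (pot_V D) k⟩
  have a3 : ∀ T, ∃ L ω, Ag eZ (V3 D) (fun p => ‖p.1‖ + (‖p.2.1‖ + ‖p.2.2‖)) (1 + (1 + 1)) B T L ω :=
    fun T => by
      obtain ⟨L, ω, k⟩ := hB T
      obtain ⟨L', ω', k'⟩ := a2 T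
      exact ⟨_, _, k.prod (pot_V D) (pot_V2 D) k'⟩
  have d2 : Module.finrank ℝ Y = Fintype.card (Fin 3 ⊕ Fin 3) := by simp
  have d3 : Module.finrank ℝ Z = Fintype.card (Fin 3 ⊕ (Fin 3 ⊕ Fin 3)) := by simp
  obtain ⟨M2, H2⟩ := mb_bound frameY d2 (pot_V2 D) (be_V2 D) pot_W2 W2_nonneg a2
    fun x y => (mb_lip2 x y).trans (by linarith [norm_nonneg (x - y)])
  obtain ⟨M3, H3⟩ := mb_bound frameZ d3 (pot_V3 D) (be_V3 D) pot_W3 W3_nonneg a3 mb_lip3
  obtain ⟨K2, hK2, E2⟩ := h.exists2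
  obtain ⟨K3, hK3, E3⟩ := h.exists3
  have hδ := sub_pos.2 h.lt
  have hγ := lt_min hδ h.c_pos
  have hg := abs_le.1 h.eg_near
  have hu := abs_le.1 h.eu_near
  set M := max (max 1 (2 * C * Real.exp D)) (max M2 M3) with hM
  have m1 : 1 ≤ M := (le_max_left _ _).trans (le_max_left _ _)
  have m2 : 2 * C * Real.exp D ≤ M := (le_max_right _ _).trans (le_max_left _ _)
  have m3 : M2 ≤ M := (le_max_left _ _).trans (le_max_right _ _)
  have m4 : M3 ≤ M := (le_max_right _ _).trans (le_max_right _ _)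
  refine ⟨M, fun η hη => ?_⟩
  obtain ⟨l1, hl1, H1'⟩ := mb_close frameZ d3 (pot_V3 D) (be_V3 D) pot_W3 be_W3 h.A0_h1
    (e0 := 2 * eg + eu) (by linarith) h.A0_eig (M := M) (by linarith) hK3 hγ hη
  set ε := min (min η (1 / 100)) (min (min (eu - eg) c / 2) ((eu - eg) * η ^ 2 / 2)) with hε
  have e0 : 0 < ε := by positivity
  have e1 : ε ≤ η := (min_le_left _ _).trans (min_le_left _ _)
  have e2 : ε ≤ 1 / 100 := (min_le_left _ _).trans (min_le_right _ _)
  have e3 : ε ≤ min (eu - eg) c / 2 := (min_le_right _ _).trans (min_le_left _ _)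
  have e4 : ε ≤ (eu - eg) * η ^ 2 / 2 := (min_le_right _ _).trans (min_le_right _ _)
  have e5 := min_le_left (eu - eg) c
  refine ⟨min l1 (ε / (1 + K2 + K3)), by positivity, fun l hl hl0 => ?_⟩
  have l2 := (lt_div_iff₀ (by positivity)).1 (hl0.trans_le (min_le_right _ _))
  have l3 := mul_pos hl hK2
  have l4 := mul_pos hl hK3
  obtain ⟨Ψ, e, k, k1, k2, k3, k4, k5⟩ := E2 l hl.le (by linarith)
  obtain ⟨A, E, j, j1, j2, j3, j4⟩ := E3 l hl.le (by linarith)
  have b2 := H2 l e Ψ hl.le k.h1 k.nrm (by linarith) (by linarith) (U2_eq D l ▸ k.eq)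
  have b3 := H3 l E A hl.le j.h1 j.nrm (by linarith) (by linarith) (U3_eq D l ▸ j.eq)
  have up : ∀ {a M' t : ℝ}, M' ≤ M → a ≤ M' * Real.exp t → a ≤ M * Real.exp t := fun h1 h2 =>
    h2.trans (mul_le_mul_of_nonneg_right h1 (Real.exp_pos _).le)
  have lo : ∀ G, H1 eY G → qf eY (V2 D) G G ≤ qf eY (U2 D l) G G := fun G hG =>
    U2_eq D l ▸ mb_qf_le (pot_V2 D) pot_W2 W2_nonneg hl.le hG
  refine ⟨Ψ, e, A, E, ⟨hl, by linarith, m1, k.meas, k.h1, k.nrm, k4, k5, k.eq, fun G hG => ?_,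
    fun G hG h0 => ?_, fun G hG h0 h1 h2 h3 => ?_, k1, by linarith,
    le_of_mul_le_mul_left (by linarith) hδ, h.bd.1.mono fun x => up m2, h.bd.2.mono fun x => up m2,
    b2.mono fun x => up m3, j.meas, j.h1, j.nrm, fun x y z => by simpa using j.sym (x, (y, z)), j4,
    j.eq, j1, by linarith, b3.mono fun p hp => up m4 (by rwa [add_assoc]),
    H1' l E A hl (hl0.trans_le (min_le_left _ _)) j.h1 (U3_eq D l ▸ j.eq) j1 j2 j3
      (b3.mono fun p hp => (up m4 hp).trans (mul_le_of_le_one_right (by linarith)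
        (Real.exp_le_one_iff.2 (by
          linarith [norm_nonneg p.1, norm_nonneg p.2.1, norm_nonneg p.2.2]))))⟩,
    fun G hG ha hn => ?_⟩
  · refine le_trans (add_le_add le_rfl (mul_le_mul_of_nonneg_right (by linarith)
      (sub_nonneg.2 (mb_ip_le k.h1.1 hG.1 k.nrm)))) (k.gap G hG (by simp))
  · have := (h.gapA G hG).trans (lo G hG)
    rw [h0] at this
    simpa using this
  · have := (h.gapB G hG).trans (lo G hG)
    rw [h0, h1, h2, h3] at this
    simpa using this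
  · have := j.gap G hG (Eventually.of_forall fun p => by simpa using ha _ _ _)
    have h2 := mul_nonneg (sub_nonneg.2 j.lt.le) (sub_nonneg.2 (mb_ip_le j.h1.1 hG.1 j.nrm))
    rw [j.energy]
    rw [hn] at this h2
    linarith

end Crest.Agent.R335
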